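import Vale.Agent.P062.Data.Cert.Assembly

/-!
# P062: Snaky is a winner
-/

namespace Vale.Agent.Results.P062.SnakyWinner

/-- Maker has a winning strategy in the planar achievement game for Snaky, without handicap. -/
theorem result : Vale.Agent.P062.MakerWins :=
  Vale.Agent.P062.Data.Cert.makerWins

end Vale.Agent.Results.P062.SnakyWinner
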